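import Vale.Agent.P050.M18.Final
import Vale.Agent.P050.H546.Spec

/-!
The uniform law on the directed edges of a graph, and the final step.
-/

set_option linter.unusedSectionVars false

namespace Vale.Agent.P050.H292

open Finset Vale.Agent.P050.Cart Vale.Agent.P050.Join Vale.Agent.P050.H148 Vale.Agent.P050.M18
open Vale.Agent.P050.H546

variable {X : Type} [Fintype X]

/-- the number of directed edges -/
noncomputable def eN (G : SimpleGraph X) : ℝ := ∑ x, ∑ y, adj G x y

/-- the uniform law on the directed edges -/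
noncomputable def QU (G : SimpleGraph X) (a : X × X) : ℝ := adj G a.1 a.2 / eN G

variable (G : SimpleGraph X)

theorem QU_adj {a : X × X} (h : QU G a ≠ 0) : adj G a.1 a.2 = 1 :=
  adj_one G (div_ne_zero_iff.1 h).1

theorem QU_four : Four (CG G) (QU G) where
  c0 := CG_nn G
  c1 := by
    intro s f f' s' h1 h2 h3 h4
    have a1 := QU_adj G h1
    have a2 := QU_adj G h2
    have a3 := QU_adj G h3
    have a4 := QU_adj G h4
    unfold CG
    simp only at a1 a2 a3 a4 ⊢
    rw [a1, a2, a3, a4]
    norm_num

variable (hG : ∃ x y, G.Adj x y)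
include hG

theorem eN_pos : 0 < eN G := by
  obtain ⟨x, y, hxy⟩ := hG
  have h1 : adj G x y = 1 := by
    unfold adj
    rw [if_pos hxy]
  have h2 : adj G x y ≤ ∑ b, adj G x b :=
    Finset.single_le_sum (f := fun b => adj G x b) (fun b _ => adj_nn G _ _) (mem_univ _)
  have h3 : ∑ b, adj G x b ≤ eN G :=
    Finset.single_le_sum (f := fun a => ∑ b, adj G a b)
      (fun a _ => Finset.sum_nonneg fun b _ => adj_nn G _ _) (mem_univ _)
  linarith

theorem QU_edge : Edge (QU G) where
  nn := fun a => div_nonneg (adj_nn G _ _) (eN_pos G hG).le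
  tot := by
    unfold QU
    rw [← Finset.sum_div, Fintype.sum_prod_type]
    exact div_self (eN_pos G hG).ne'
  sym := fun x y => by
    unfold QU
    rw [adj_symm G x y]

/-- the entropy of an edge -/
theorem hQ_QU : hQ (QU G) = Real.log (∑ x, ∑ y, adj G x y) := by
  have ht := eN_pos G hG
  have hE := QU_edge G hG
  unfold hQ
  rw [ent_eq]
  have e1 : ∀ x, QU G x * Real.log (mar (QU G) (fun x => x) x) =
      - (QU G x * Real.log (eN G)) := by
    intro x
    rw [mar_id]
    by_cases hx : QU G x = 0
    · rw [hx]; ring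
    · have h2 : QU G x = 1 / eN G := by
        have h1 := QU_adj G hx
        unfold QU
        rw [h1]
      rw [h2, Real.log_div one_ne_zero ht.ne', Real.log_one]
      ring
  rw [Finset.sum_congr rfl fun x _ => e1 x, Finset.sum_neg_distrib, neg_neg, ← Finset.sum_mul,
    hE.tot, one_mul]
  rfl

/-- the entropy of a vertex -/
theorem aQ_QU : aQ (QU G) ≤ Real.log (Fintype.card X) := by
  have hE := QU_edge G hG
  have key := ent_log_sum (P := QU G) hE.nn hE.tot (fun e => e.2) (fun _ => 1)
    (fun a => zero_le_one) (fun a ha => one_ne_zero)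
  have h2 := key.2
  simp only [Real.log_one, mul_zero, Finset.sum_const_zero, add_zero, Finset.sum_const,
    Finset.card_univ, nsmul_eq_mul, mul_one] at h2
  rw [hE.ent_snd] at h2
  exact h2

omit hG

section zps

variable {E : Type} [Fintype E] [DecidableEq E]

/-- powers of a symmetric kernel are symmetric -/
theorem zp_symm {C : E → E → ℝ} (hC : ∀ a b, C a b = C b a) (n : ℕ) (a b : E) :
    zp C n a b = zp C n b a := by
  induction n generalizing a b with
  | zero =>
    show (if a = b then (1 : ℝ) else 0) = if b = a then 1 else 0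
    by_cases h : a = b
    · rw [if_pos h, if_pos h.symm]
    · rw [if_neg h, if_neg fun h' => h h'.symm]
  | succ n ih =>
    rw [zp_left C n b a]
    show ∑ c, zp C n a c * C c b = _
    refine Finset.sum_congr rfl fun c _ => ?_
    rw [ih a c, hC c b, mul_comm]

end zps

variable [DecidableEq X]

/-- cutting at the centre rung -/
theorem nh_eq (n : ℕ) : ∑ b, ∑ a, zp (CG G) (2 * n + 5) b a * cc (adj G) b a =
    nh (CG G) (adj G) n := by
  unfold nh
  have h1 : ∀ b a, zp (CG G) (2 * n + 5) b a * cc (adj G) b a =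
      ∑ R, zp (CG G) (n + 1) R a * zp (CG G) (n + 4) R b * cc (adj G) b a := by
    intro b a
    rw [show 2 * n + 5 = (n + 4) + (n + 1) by ring, zp_add, Finset.sum_mul]
    refine Finset.sum_congr rfl fun R _ => ?_
    rw [zp_symm (CG_symm G) (n + 4) b R]
    ring
  rw [Finset.sum_congr rfl fun b _ => Finset.sum_congr rfl fun a _ => h1 b a]
  rw [Finset.sum_congr rfl fun b _ => Finset.sum_comm, Finset.sum_comm]
  refine Finset.sum_congr rfl fun R _ => ?_
  rw [Finset.sum_comm]

end Vale.Agent.P050.H292

namespace Vale.Agent.P050.H292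

open Finset Vale.Agent.P050.Cart Vale.Agent.P050.Join Vale.Agent.P050.H148 Vale.Agent.P050.M18
open Vale.Agent.P050.H546

/-- [F] from the two halves -/
theorem final_of (hEnt : EntStmt) (hGr : GraphStmt) : FinalStmt := by
  classical
  intro X _ _ G k hk h11
  have hnn := hom_nn G (rungless k)
  rcases (edge_nn G).lt_or_eq with hp | hp
  · have hG := exists_adj G hp
    obtain ⟨j, hj⟩ := hk
    obtain ⟨n, rfl⟩ : ∃ n, k = 2 * n + 5 + 2 := ⟨j - 3, by omega⟩
    have hn : 2 ≤ n := by omega
    have hN := card_pos' (X := X)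
    obtain ⟨h1, h2⟩ := hEnt X (CG G) (adj G) (QU G) (QU_edge G hG) (QU_four G) (adj_nn G)
      (fun x y h => QU_adj G h) n hn
    have h3 := hGr X G (2 * n + 5) ⟨n + 2, by ring⟩
    rw [nh_eq] at h3
    rw [← h3] at h1 h2
    have h4 : 0 < homDensity (rungless (2 * n + 5 + 2)) G := by
      rcases hnn.lt_or_eq with h | h
      · exact h
      · rw [← h, zero_mul] at h1
        exact absurd h1 (lt_irrefl _)
    rw [hQ_QU G hG, adj_sum', Real.log_mul h4.ne' (by positivity), Real.log_pow,
      Real.log_mul hp.ne' (by positivity), Real.log_pow] at h2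
    have h5 := aQ_QU G hG
    rw [← Real.log_le_log_iff (by positivity) h4, Real.log_pow]
    set ℓ := Real.log (Fintype.card X) with hℓ
    have h6 : (8 * (n : ℝ) + 26) * aQ (QU G) ≤ (8 * n + 26) * ℓ :=
      mul_le_mul_of_nonneg_left h5 (by positivity)
    have h7 : ((3 * (2 * n + 5 + 2) - 1 : ℕ) : ℝ) = 6 * n + 20 := by
      have : 3 * (2 * n + 5 + 2) - 1 = 6 * n + 20 := by omega
      rw [this]
      push_cast
      ring
    rw [h7]
    push_cast at h2
    nlinarith [h2, h6]
  · rw [← hp, zero_pow (by omega)]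
    exact hnn

end Vale.Agent.P050.H292
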