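import Vale.Agent.P050.H292.F0
import Vale.Agent.P050.H222.GG

/-!
The final step for `2 t + 3` rungs, `t` consecutive rungs deleted.
-/

set_option linter.unusedSectionVars false

namespace Vale.Agent.P050.H292

open Finset Vale.Agent.P050.Cart Vale.Agent.P050.Join Vale.Agent.P050.H148 Vale.Agent.P050.M18
open Vale.Agent.P050.H546

/-- the entropy side -/
def EntAStmt : Prop := ∀ (U : Type) [Fintype U] [DecidableEq U] (C : U × U → U × U → ℝ)
  (A : U → U → ℝ) (Q : U × U → ℝ), Edge Q → Four C Q → (∀ x y, 0 ≤ A x y) →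
  (∀ x y, Q (x, y) ≠ 0 → A x y = 1) → ∀ t : ℕ, 2 ≤ t →
  0 < (∑ b, ∑ a, zp C (t + 2) b a * cj A (t + 1) b a) ∧
    (5 * t + 9) * hQ Q - (6 * t + 12) * aQ Q ≤
      Real.log (∑ b, ∑ a, zp C (t + 2) b a * cj A (t + 1) b a)

/-- the theorem -/
def FinAStmt : Prop := ∀ (X : Type) [Fintype X] [Nonempty X] (G : SimpleGraph X) (k t : ℕ),
  2 ≤ t → k = 2 * t + 3 → edgeDensity G ^ (3 * k - t) ≤ homDensity (cutLadder k t) G

/-- from the two halves -/
theorem finA_of (hEnt : EntAStmt) (hGr : GGraphStmt) : FinAStmt := by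
  classical
  intro X _ _ G k t ht hkt
  have hnn := hom_nn G (cutLadder k t)
  rcases (edge_nn G).lt_or_eq with hp | hp
  · have hG := exists_adj G hp
    obtain rfl : k = t + 2 + 1 + t := by omega
    have hN := card_pos' (X := X)
    obtain ⟨h1, h2⟩ := hEnt X (CG G) (adj G) (QU G) (QU_edge G hG) (QU_four G) (adj_nn G)
      (fun x y h => QU_adj G h) t ht
    have h3 := hGr X G (t + 2) t (by omega) (by omega) ⟨t + 1, by ring⟩
    rw [← h3] at h1 h2
    have h4 : 0 < homDensity (cutLadder (t + 2 + 1 + t) t) G := by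
      rcases hnn.lt_or_eq with h | h
      · exact h
      · rw [← h, zero_mul] at h1
        exact absurd h1 (lt_irrefl _)
    rw [hQ_QU G hG, adj_sum', Real.log_mul h4.ne' (by positivity), Real.log_pow,
      Real.log_mul hp.ne' (by positivity), Real.log_pow] at h2
    have h5 := aQ_QU G hG
    rw [← Real.log_le_log_iff (by positivity) h4, Real.log_pow]
    set ℓ := Real.log (Fintype.card X) with hℓ
    have h6 : (6 * (t : ℝ) + 12) * aQ (QU G) ≤ (6 * t + 12) * ℓ :=
      mul_le_mul_of_nonneg_left h5 (by positivity)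
    have h7 : ((3 * (t + 2 + 1 + t) - t : ℕ) : ℝ) = 5 * t + 9 := by
      have : 3 * (t + 2 + 1 + t) - t = 5 * t + 9 := by omega
      rw [this]
      push_cast
      ring
    rw [h7]
    push_cast at h2
    nlinarith [h2, h6]
  · rw [← hp, zero_pow (by omega)]
    exact hnn

/-- with the graph side -/
theorem finA (h : EntAStmt) : FinAStmt := finA_of h H222.ggraph

end Vale.Agent.P050.H292
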