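import Vale.Agent.P050.H546.GSpec

/-!
The entropy side for `t` consecutive deleted rungs, from its lemmas.
-/

set_option linter.unusedSectionVars false

namespace Vale.Agent.P050.H292

open Finset Vale.Agent.P050.Cart Vale.Agent.P050.Join Vale.Agent.P050.H148 Vale.Agent.P050.M18
open Vale.Agent.P050.H546

/-- [GEnt] -/
theorem gent_of (h1 : GBaseStmt) (h3 : GCloseStmt) (h4 : GInfStmt) : GEntStmt := by
  intro U _ _ C A Q hE hC hA hA1 n t hn ht
  obtain ⟨Ω, _, P, R, a, b, d, e, hG2⟩ := h1 U Q hE n (t + 2) (by omega)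
  obtain ⟨h5, h6⟩ := h3 U Ω C A Q P R a b d e n (t + 2) (by omega) hE hC hA hA1 hG2
  refine ⟨h5, le_trans ?_ h6⟩
  obtain ⟨i1, i2, i3, i4⟩ := h4 U Q hE
  have e1 : gQ Q = 3 * hQ Q - 2 * aQ Q - h2Q Q := rfl
  have e2 := i2 (t + 2)
  have e3 := i4 (n + (t + 2))
  have e4 := hB_ge hE (n + 1) (by omega)
  have e5 : h2Q Q ≤ hh Q (t + 1) := by
    rw [← i1]
    exact monotone_nat_of_le_succ i3 (by omega)
  have e6 := r_nonneg hE
  have hn' : (1 : ℝ) ≤ n := by exact_mod_cast hn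
  have ht' : (1 : ℝ) ≤ t := by exact_mod_cast ht
  have e7 : 0 ≤ (2 * (n : ℝ) + t - 3) * (2 * aQ Q - h2Q Q) :=
    mul_nonneg (by linarith) e6
  rw [e1]
  rw [show t + 2 - 1 = t + 1 from rfl]
  push_cast
  nlinarith [e2, e3, e4, e5, e6, e7]

end Vale.Agent.P050.H292
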