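import Vale.Agent.P050.H292.F0
import Vale.Agent.P050.H546.GSpec

/-!
The final step for `t` consecutive deleted rungs.
-/

set_option linter.unusedSectionVars false

namespace Vale.Agent.P050.H292

open Finset Vale.Agent.P050.Cart Vale.Agent.P050.Join Vale.Agent.P050.H148 Vale.Agent.P050.M18
open Vale.Agent.P050.H546

variable {X : Type} [Fintype X] (G : SimpleGraph X) [DecidableEq X]

/-- cutting at the centre rung -/
theorem nL_eq (n t : ℕ) : ∑ b, ∑ a, zp (CG G) (2 * n + t + 4) b a * cj (adj G) (t + 1) b a =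
    nL (CG G) (adj G) n (t + 2) := by
  unfold nL
  have h1 : ∀ b a, zp (CG G) (2 * n + t + 4) b a * cj (adj G) (t + 1) b a =
      ∑ R, zp (CG G) (n + 1) R a * zp (CG G) (n + (t + 2) + 1) R b *
        cj (adj G) (t + 2 - 1) b a := by
    intro b a
    rw [show 2 * n + t + 4 = (n + (t + 2) + 1) + (n + 1) by ring, zp_add, Finset.sum_mul]
    refine Finset.sum_congr rfl fun R _ => ?_
    rw [zp_symm (CG_symm G) (n + (t + 2) + 1) b R, show t + 2 - 1 = t + 1 from rfl]
    ring
  rw [Finset.sum_congr rfl fun b _ => Finset.sum_congr rfl fun a _ => h1 b a]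
  rw [Finset.sum_congr rfl fun b _ => Finset.sum_comm, Finset.sum_comm]
  refine Finset.sum_congr rfl fun R _ => ?_
  rw [Finset.sum_comm]

omit [DecidableEq X]

/-- [GF] from the two halves -/
theorem gfinal_of (hEnt : GEntStmt) (hGr : GGraphStmt) : GFinalStmt := by
  classical
  intro X _ _ G k t hk ht hkt
  have hnn := hom_nn G (cutLadder k t)
  rcases (edge_nn G).lt_or_eq with hp | hp
  · have hG := exists_adj G hp
    obtain ⟨j, hj⟩ := hk
    obtain ⟨n, rfl⟩ : ∃ n, k = 2 * n + t + 4 + 1 + t := ⟨j - t - 2, by omega⟩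
    have hn : 1 ≤ n := by omega
    have hN := card_pos' (X := X)
    obtain ⟨h1, h2⟩ := hEnt X (CG G) (adj G) (QU G) (QU_edge G hG) (QU_four G) (adj_nn G)
      (fun x y h => QU_adj G h) n t hn ht
    have h3 := hGr X G (2 * n + t + 4) t (by omega) ht ⟨n + t + 2, by ring⟩
    rw [nL_eq] at h3
    rw [← h3] at h1 h2
    have h4 : 0 < homDensity (cutLadder (2 * n + t + 4 + 1 + t) t) G := by
      rcases hnn.lt_or_eq with h | h
      · exact h
      · rw [← h, zero_mul] at h1
        exact absurd h1 (lt_irrefl _)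
    rw [hQ_QU G hG, adj_sum', Real.log_mul h4.ne' (by positivity), Real.log_pow,
      Real.log_mul hp.ne' (by positivity), Real.log_pow] at h2
    have h5 := aQ_QU G hG
    rw [← Real.log_le_log_iff (by positivity) h4, Real.log_pow]
    set ℓ := Real.log (Fintype.card X) with hℓ
    have h6 : (8 * (n : ℝ) + 6 * t + 20) * aQ (QU G) ≤ (8 * n + 6 * t + 20) * ℓ :=
      mul_le_mul_of_nonneg_left h5 (by positivity)
    have h7 : ((3 * (2 * n + t + 4 + 1 + t) - t : ℕ) : ℝ) = 6 * n + 5 * t + 15 := by
      have : 3 * (2 * n + t + 4 + 1 + t) - t = 6 * n + 5 * t + 15 := by omega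
      rw [this]
      push_cast
      ring
    rw [h7]
    push_cast at h2
    nlinarith [h2, h6]
  · rw [← hp, zero_pow (by omega)]
    exact hnn

end Vale.Agent.P050.H292
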