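import Vale.Agent.P050.H546.GSpec

/-!
The Moebius ladder without `t` consecutive rungs: number of homomorphisms.
-/

set_option linter.unusedSectionVars false

namespace Vale.Agent.P050.H292.GG

open Finset Vale.Agent.P050.H148 Vale.Agent.P050.M18 Vale.Agent.P050.H546

section zq

variable {E : Type} [Fintype E] [DecidableEq E]

/-- products of kernels -/
def zq (K : ℕ → E → E → ℝ) : ℕ → E → E → ℝ
  | 0 => fun a b => if a = b then 1 else 0
  | n + 1 => fun a b => ∑ c, zq K n a c * K n c b

/-- the sum over the sequences with given ends -/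
theorem zq_path (K : ℕ → E → E → ℝ) (m : ℕ) (F : E → E → ℝ) :
    ∑ e : Fin (m + 1) → E, (∏ j : Fin m, K j.val (e j.castSucc) (e j.succ)) *
      F (e 0) (e (Fin.last m)) = ∑ a, ∑ b, zq K m a b * F a b := by
  induction m generalizing F with
  | zero =>
    have h0 := (Equiv.funUnique (Fin 1) E).symm.sum_comp (fun e : Fin 1 → E =>
      (∏ j : Fin 0, K j.val (e j.castSucc) (e j.succ)) * F (e 0) (e (Fin.last 0)))
    rw [← h0]
    refine Finset.sum_congr rfl fun a _ => ?_
    simp [zq, Equiv.funUnique]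
  | succ m ih =>
    have h1 := (Fin.snocEquiv (fun _ : Fin (m + 2) => E)).sum_comp (fun e : Fin (m + 2) → E =>
      (∏ j : Fin (m + 1), K j.val (e j.castSucc) (e j.succ)) * F (e 0) (e (Fin.last (m + 1))))
    rw [← h1, Fintype.sum_prod_type]
    have h2 : ∀ x : E, (∑ e' : Fin (m + 1) → E,
        (∏ j : Fin (m + 1), K j.val ((Fin.snocEquiv (fun _ : Fin (m + 2) => E)) (x, e') j.castSucc)
          ((Fin.snocEquiv (fun _ : Fin (m + 2) => E)) (x, e') j.succ)) *
          F ((Fin.snocEquiv (fun _ : Fin (m + 2) => E)) (x, e') 0)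
            ((Fin.snocEquiv (fun _ : Fin (m + 2) => E)) (x, e') (Fin.last (m + 1)))) =
        ∑ a, ∑ b, zq K m a b * (K m b x * F a x) := by
      intro x
      rw [← ih fun a b => K m b x * F a x]
      refine Finset.sum_congr rfl fun e' _ => ?_
      have e0 : (Fin.snocEquiv (fun _ : Fin (m + 2) => E)) (x, e') 0 = e' 0 := by
        show Fin.snoc (α := fun _ => E) e' x 0 = e' 0
        exact Fin.snoc_castSucc (α := fun _ => E) x e' 0
      have el : (Fin.snocEquiv (fun _ : Fin (m + 2) => E)) (x, e') (Fin.last (m + 1)) = x := by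
        show Fin.snoc (α := fun _ => E) e' x (Fin.last (m + 1)) = x
        exact Fin.snoc_last _ _
      have ec : ∀ j : Fin (m + 1),
          (Fin.snocEquiv (fun _ : Fin (m + 2) => E)) (x, e') j.castSucc = e' j := fun j => by
        show Fin.snoc (α := fun _ => E) e' x j.castSucc = e' j
        exact Fin.snoc_castSucc (α := fun _ => E) x e' j
      rw [e0, el, Fin.prod_univ_castSucc]
      have h3 : ∀ j : Fin m, (Fin.snocEquiv (fun _ : Fin (m + 2) => E)) (x, e') j.castSucc.succ =
          e' j.succ := fun j => by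
        rw [← Fin.castSucc_succ, ec]
      have h4 : (Fin.snocEquiv (fun _ : Fin (m + 2) => E)) (x, e') (Fin.last m).succ = x := by
        rw [Fin.succ_last, el]
      simp only [ec, h3, h4, Fin.val_castSucc, Fin.val_last]
      ring
    rw [Finset.sum_congr rfl fun x _ => h2 x, Finset.sum_comm]
    refine Finset.sum_congr rfl fun a _ => Finset.sum_congr rfl fun x _ => ?_
    have h5 : zq K (m + 1) a x = ∑ b, zq K m a b * K m b x := rfl
    rw [h5, Finset.sum_mul]
    exact Finset.sum_congr rfl fun b _ => by ring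

theorem zq_low (K0 K1 : E → E → ℝ) (t n : ℕ) (hn : n ≤ t) (a b : E) :
    zq (fun j => if j < t then K0 else K1) n a b = zp K0 n a b := by
  induction n generalizing b with
  | zero => rfl
  | succ n ih =>
    show ∑ c, zq _ n a c * (if n < t then K0 else K1) c b = ∑ c, zp K0 n a c * K0 c b
    refine Finset.sum_congr rfl fun c _ => ?_
    rw [ih (by omega), if_pos (by omega)]

theorem zq_add (K0 K1 : E → E → ℝ) (t m : ℕ) (a b : E) :
    zq (fun j => if j < t then K0 else K1) (t + m) a b = ∑ c, zp K0 t a c * zp K1 m c b := by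
  induction m generalizing b with
  | zero =>
    rw [add_zero, zq_low K0 K1 t t le_rfl]
    simp [zp]
  | succ m ih =>
    show ∑ c, zq _ (t + m) a c * (if t + m < t then K0 else K1) c b =
      ∑ c, zp K0 t a c * ∑ d, zp K1 m c d * K1 d b
    simp only [ih, Finset.sum_mul, Finset.mul_sum]
    rw [Finset.sum_comm]
    refine Finset.sum_congr rfl fun c _ => Finset.sum_congr rfl fun d _ => ?_
    rw [if_neg (by omega)]
    ring

end zq

section ker

variable {X : Type} [Fintype X] (G : SimpleGraph X)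

/-- the strand edges -/
noncomputable def K0 (a b : X × X) : ℝ := adj G a.1 b.2 * adj G b.1 a.2

/-- the strand edges and the two rungs -/
noncomputable def K1 (a b : X × X) : ℝ := CG G a b.swap

theorem K0_swap (a b : X × X) : K0 G a.swap b = K0 G a b.swap := by
  unfold K0
  simp only [Prod.fst_swap, Prod.snd_swap]
  rw [adj_symm G a.2 b.2, adj_symm G b.1 a.1]
  ring

theorem K0_sg (n : ℕ) (a b : X × X) : K0 G (sg n a) b = K0 G a (sg n b) := by
  induction n generalizing a b with
  | zero => rfl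
  | succ n ih =>
    show K0 G (sg n a).swap b = K0 G a (sg n b).swap
    rw [K0_swap, ih, sg_swap]

theorem CG_sg (n : ℕ) (a b : X × X) : CG G (sg n a) b = CG G a (sg n b) := by
  induction n generalizing a b with
  | zero => rfl
  | succ n ih =>
    show CG G (sg n a).swap b = CG G a (sg n b).swap
    have h1 := CG_swap G (sg n a) b.swap
    rw [Prod.swap_swap] at h1
    rw [h1, ih, sg_swap]

variable [DecidableEq X]

theorem zp_K1 (n : ℕ) (a b : X × X) : zp (K1 G) n a b = zp (CG G) n a (sg n b) := by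
  induction n generalizing b with
  | zero => rfl
  | succ n ih =>
    show ∑ c, zp (K1 G) n a c * CG G c b.swap = ∑ c, zp (CG G) n a c * CG G c (sg n b).swap
    rw [← (sgE n).sum_comp (fun c => zp (K1 G) n a c * CG G c b.swap)]
    refine Finset.sum_congr rfl fun c _ => ?_
    have e : (sgE n) c = sg n c := rfl
    rw [e, ih, sg_sg, CG_sg, sg_swap]

theorem zp_K0 (n : ℕ) (a b : X × X) :
    zp (K0 G) n a b = zp (adj G) n a.1 (sg n b).1 * zp (adj G) n a.2 (sg n b).2 := by
  induction n generalizing b with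
  | zero =>
    obtain ⟨a1, a2⟩ := a
    obtain ⟨b1, b2⟩ := b
    show (if (a1, a2) = (b1, b2) then (1 : ℝ) else 0) =
      (if a1 = b1 then 1 else 0) * (if a2 = b2 then 1 else 0)
    by_cases h1 : a1 = b1 <;> by_cases h2 : a2 = b2 <;> simp [h1, h2]
  | succ n ih =>
    show ∑ c, zp (K0 G) n a c * K0 G c b = _
    rw [← (sgE n).sum_comp (fun c => zp (K0 G) n a c * K0 G c b)]
    have h1 : ∀ c : X × X, zp (K0 G) n a ((sgE n) c) * K0 G ((sgE n) c) b =
        (zp (adj G) n a.1 c.1 * adj G c.1 (sg (n + 1) b).1) *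
          (zp (adj G) n a.2 c.2 * adj G c.2 (sg (n + 1) b).2) := by
      intro c
      have e : (sgE n) c = sg n c := rfl
      rw [e, ih, sg_sg, K0_sg]
      have e2 : sg (n + 1) b = (sg n b).swap := rfl
      rw [e2]
      unfold K0
      simp only [Prod.fst_swap, Prod.snd_swap]
      rw [adj_symm G (sg n b).1 c.2]
      ring
    rw [Finset.sum_congr rfl fun c _ => h1 c, Fintype.sum_prod_type]
    have h2 : ∀ x y : X, zp (adj G) (n + 1) x y = ∑ c, zp (adj G) n x c * adj G c y :=
      fun _ _ => rfl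
    rw [h2, h2, Finset.sum_mul_sum]

theorem sg_even {n : ℕ} (h : n % 2 = 0) (b : X × X) : sg n b = b := by
  obtain ⟨k, rfl⟩ : ∃ k, n = 2 * k := ⟨n / 2, by omega⟩
  induction k with
  | zero => rfl
  | succ k ih =>
    show ((sg (2 * k) b).swap).swap = b
    rw [Prod.swap_swap]
    exact ih (by omega)

theorem sg_odd {n : ℕ} (h : n % 2 = 1) (b : X × X) : sg n b = b.swap := by
  obtain ⟨k, rfl⟩ : ∃ k, n = k + 1 := ⟨n - 1, by omega⟩
  show (sg k b).swap = b.swap
  rw [sg_even (by omega)]

theorem adj_zp_symm (n : ℕ) (a b : X) : zp (adj G) n a b = zp (adj G) n b a := by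
  induction n generalizing a b with
  | zero =>
    show (if a = b then (1 : ℝ) else 0) = if b = a then 1 else 0
    by_cases h : a = b
    · rw [if_pos h, if_pos h.symm]
    · rw [if_neg h, if_neg fun h' => h h'.symm]
  | succ n ih =>
    rw [zp_left (adj G) n b a]
    show ∑ c, zp (adj G) n a c * adj G c b = _
    refine Finset.sum_congr rfl fun c _ => ?_
    rw [ih a c, adj_symm G c b, mul_comm]

/-- the transfer matrices -/
theorem sum_eq (m t : ℕ) (hodd : (m + 1 + t) % 2 = 1) :
    ∑ a, ∑ b, zq (fun j => if j < t then K0 G else K1 G) (t + m) a b * K0 G b a =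
      ∑ b, ∑ a, zp (CG G) m b a * cj (adj G) (t + 1) b a := by
  have h1 : ∀ a b, zq (fun j => if j < t then K0 G else K1 G) (t + m) a b * K0 G b a =
      ∑ c, zp (K1 G) m c b * (K0 G b a * zp (K0 G) t a c) := by
    intro a b
    rw [zq_add, Finset.sum_mul]
    exact Finset.sum_congr rfl fun c _ => by ring
  simp only [h1]
  rw [Finset.sum_congr rfl fun a _ => Finset.sum_comm, Finset.sum_comm]
  refine Finset.sum_congr rfl fun c _ => ?_
  rw [Finset.sum_comm]
  have h2 : ∀ b, ∑ a, zp (K1 G) m c b * (K0 G b a * zp (K0 G) t a c) =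
      zp (K1 G) m c b * zp (K0 G) (t + 1) b c := by
    intro b
    rw [← Finset.mul_sum, zp_left]
  rw [Finset.sum_congr rfl fun b _ => h2 b,
    ← (sgE m).sum_comp (fun b => zp (K1 G) m c b * zp (K0 G) (t + 1) b c)]
  refine Finset.sum_congr rfl fun b _ => ?_
  have e : (sgE m) b = sg m b := rfl
  rw [e, zp_K1, sg_sg, zp_K0]
  congr 1
  unfold cj
  rcases Nat.mod_two_eq_zero_or_one m with hm | hm
  · rw [sg_even hm, sg_odd (n := t + 1) (by omega)]
    simp only [Prod.fst_swap, Prod.snd_swap]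
    rw [adj_zp_symm G (t + 1) b.1 c.2, adj_zp_symm G (t + 1) b.2 c.1]
  · rw [sg_odd hm, sg_even (n := t + 1) (by omega)]
    simp only [Prod.fst_swap, Prod.snd_swap]
    rw [adj_zp_symm G (t + 1) b.2 c.1, adj_zp_symm G (t + 1) b.1 c.2, mul_comm]

end ker

section graph

variable {X : Type} [Fintype X]

theorem cut_adj {k t : ℕ} {u v : ZMod k × Bool} : (cutLadder k t).Adj u v ↔
    (moebiusLadder k).Adj u v ∧ ¬ (u.1 = v.1 ∧ ∃ i : ℕ, i < t ∧ u.1 = (i : ZMod k)) := by
  unfold cutLadder
  rw [SimpleGraph.deleteEdges_adj]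
  obtain ⟨i, a⟩ := u
  obtain ⟨j, b⟩ := v
  refine and_congr_right fun h => not_congr ?_
  have hab : a ≠ b := h.1
  simp only [Set.mem_setOf_eq, Sym2.eq_iff, Prod.mk.injEq]
  constructor
  · rintro ⟨n, hn, (⟨⟨h1, h2⟩, h3, h4⟩ | ⟨⟨h1, h2⟩, h3, h4⟩)⟩
    · exact ⟨h1.trans h3.symm, n, hn, h1⟩
    · exact ⟨h1.trans h3.symm, n, hn, h1⟩
  · rintro ⟨h1, n, hn, h2⟩
    refine ⟨n, hn, ?_⟩
    cases a <;> cases b <;> simp_all

/-- homomorphisms from the ladder -/
def homEquiv (G : SimpleGraph X) (k t : ℕ) (hk : (1 : ZMod k) ≠ 0) :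
    (cutLadder k t →g G) ≃ {w : ZMod k → X × X //
      (∀ i : ZMod k, (¬ ∃ n : ℕ, n < t ∧ i = (n : ZMod k)) → G.Adj (w i).1 (w i).2) ∧
      ∀ i, G.Adj (w i).1 (w (i + 1)).2 ∧ G.Adj (w (i + 1)).1 (w i).2} where
  toFun φ := ⟨fun i => (φ (i, false), φ (i, true)), fun i hi => φ.map_rel
      (cut_adj.2 ⟨⟨by simp, Or.inl rfl⟩, fun h => hi h.2⟩),
    fun i => ⟨φ.map_rel (cut_adj.2 ⟨⟨by simp, Or.inr (Or.inr rfl)⟩, fun h => hk (by
      have h1 : i = i + 1 := h.1
      exact (left_eq_add.1 h1))⟩), φ.map_rel (cut_adj.2 ⟨⟨by simp, Or.inr (Or.inl rfl)⟩,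
      fun h => hk (by
      have h1 : i + 1 = i := h.1
      exact (left_eq_add.1 h1.symm))⟩)⟩⟩
  invFun w := ⟨fun v => if v.2 then (w.1 v.1).2 else (w.1 v.1).1, by
    rintro ⟨i, a⟩ ⟨j, b⟩ hh
    obtain ⟨⟨hab, hij⟩, hn⟩ := cut_adj.1 hh
    have hw := w.2
    simp only at hab hij hn
    have h0 : i = j → ¬ ∃ n : ℕ, n < t ∧ i = (n : ZMod k) := fun h h' => hn ⟨h, h'⟩
    cases a <;> cases b
    · exact absurd rfl hab
    · simp only [Bool.false_eq_true, if_false, if_true]
      rcases hij with h | h | h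
      · have := hw.1 i (h0 h)
        subst h
        exact this
      · subst h; exact (hw.2 j).2
      · subst h; exact (hw.2 i).1
    · simp only [Bool.false_eq_true, if_false, if_true]
      rcases hij with h | h | h
      · have := hw.1 i (h0 h)
        subst h
        exact this.symm
      · subst h; exact (hw.2 j).1.symm
      · subst h; exact (hw.2 i).2.symm
    · exact absurd rfl hab⟩
  left_inv φ := by
    ext ⟨i, a⟩
    cases a <;> rfl
  right_inv w := by
    apply Subtype.ext
    rfl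

theorem deleted_iff (M t : ℕ) (ht : t ≤ M + 1) (i : Fin (M + 1)) :
    (¬ ∃ n : ℕ, n < t ∧ (i : ZMod (M + 1)) = (n : ZMod (M + 1))) ↔ t ≤ i.val := by
  constructor
  · intro h
    by_contra hlt
    push Not at hlt
    refine h ⟨i.val, hlt, ?_⟩
    exact (ZMod.natCast_zmod_val (n := M + 1) i).symm
  · rintro h ⟨n, hn, he⟩
    have h1 : i.val = n := by
      have h2 : ZMod.val (n := M + 1) i = n := by
        have h3 := congrArg (ZMod.val (n := M + 1)) he
        rw [ZMod.val_natCast_of_lt (by omega)] at h3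
        exact h3
      exact h2
    omega

/-- a strand step -/
def St (G : SimpleGraph X) (a b : X × X) : Prop := G.Adj a.1 b.2 ∧ G.Adj b.1 a.2

/-- cutting the circle -/
theorem circle_iff (G : SimpleGraph X) (M t : ℕ) (ht : t < M) (w : Fin (M + 1) → X × X) :
    ((∀ i : Fin (M + 1), t ≤ i.val → G.Adj (w i).1 (w i).2) ∧
      ∀ i : Fin (M + 1), G.Adj (w i).1 (w (i + 1)).2 ∧ G.Adj (w (i + 1)).1 (w i).2) ↔
    (∀ j : Fin M, St G (w j.castSucc) (w j.succ) ∧ (t ≤ j.val →
      (G.Adj (w j.castSucc).1 (w j.castSucc).2 ∧ G.Adj (w j.succ).1 (w j.succ).2))) ∧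
    St G (w (Fin.last M)) (w 0) := by
  constructor
  · rintro ⟨h1, h2⟩
    refine ⟨fun j => ⟨?_, fun hj => ⟨h1 _ ?_, h1 _ ?_⟩⟩, ?_⟩
    · have := h2 j.castSucc
      rw [Fin.coeSucc_eq_succ] at this
      exact this
    · simpa using hj
    · simp only [Fin.val_succ]; omega
    · have := h2 (Fin.last M)
      rw [Fin.last_add_one] at this
      exact this
  · rintro ⟨h1, h2⟩
    refine ⟨fun i hi => ?_, fun i => ?_⟩
    · obtain ⟨M, rfl⟩ : ∃ n, M = n + 1 := ⟨M - 1, by omega⟩
      refine Fin.lastCases (motive := fun i => t ≤ i.val → G.Adj (w i).1 (w i).2) ?_ (fun j => ?_)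
        i hi
      · intro _
        have := ((h1 (Fin.last M)).2 (by simp only [Fin.val_last]; omega)).2
        rwa [Fin.succ_last] at this
      · intro hj
        exact ((h1 j).2 (by simpa using hj)).1
    · refine Fin.lastCases ?_ (fun j => ?_) i
      · rw [Fin.last_add_one]
        exact h2
      · rw [Fin.coeSucc_eq_succ]
        exact (h1 j).1

theorem St_ind (G : SimpleGraph X) (a b : X × X) [Decidable (St G a b)] :
    K0 G a b = if St G a b then 1 else 0 := by
  classical
  unfold K0 adj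
  by_cases h1 : G.Adj a.1 b.2 <;> by_cases h2 : G.Adj b.1 a.2 <;>
    simp [St, h1, h2]

theorem step_ind (G : SimpleGraph X) (t j : ℕ) (a b : X × X)
    [Decidable (St G a b ∧ (t ≤ j → (G.Adj a.1 a.2 ∧ G.Adj b.1 b.2)))] :
    (if j < t then K0 G else K1 G) a b =
      if (St G a b ∧ (t ≤ j → (G.Adj a.1 a.2 ∧ G.Adj b.1 b.2))) then 1 else 0 := by
  classical
  by_cases hj : j < t
  · rw [if_pos hj, St_ind]
    have : ¬ t ≤ j := by omega
    simp only [this, false_imp_iff, and_true]
  · rw [if_neg hj]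
    have : t ≤ j := by omega
    simp only [this, true_imp_iff]
    unfold K1 CG
    simp only [Prod.fst_swap, Prod.snd_swap]
    rw [adj_symm G a.2 b.1, adj_symm G b.2 b.1]
    unfold adj
    by_cases h1 : G.Adj a.1 a.2 <;> by_cases h2 : G.Adj b.1 a.2 <;> by_cases h3 : G.Adj a.1 b.2 <;>
      by_cases h4 : G.Adj b.1 b.2 <;> simp [St, h1, h2, h3, h4]

theorem count [DecidableEq X] (G : SimpleGraph X) (M t : ℕ) (ht : t < M) :
    (Nat.card (cutLadder (M + 1) t →g G) : ℝ) =
      ∑ a, ∑ b, zq (fun j => if j < t then K0 G else K1 G) M a b * K0 G b a := by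
  classical
  have hk : (1 : ZMod (M + 1)) ≠ 0 := by
    have : Fact (1 < M + 1) := ⟨by omega⟩
    exact one_ne_zero
  have h1 : Nat.card (cutLadder (M + 1) t →g G) = Nat.card {w : Fin (M + 1) → X × X //
      (∀ j : Fin M, St G (w j.castSucc) (w j.succ) ∧ (t ≤ j.val →
      (G.Adj (w j.castSucc).1 (w j.castSucc).2 ∧ G.Adj (w j.succ).1 (w j.succ).2))) ∧
    St G (w (Fin.last M)) (w 0)} := by
    refine Nat.card_congr ((homEquiv G (M + 1) t hk).trans
      (Equiv.subtypeEquivRight fun w => ?_))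
    rw [← circle_iff G M t ht w]
    refine and_congr (forall_congr' fun i => imp_congr ?_ Iff.rfl) Iff.rfl
    exact deleted_iff M t (by omega) i
  rw [h1, Nat.card_eq_fintype_card, Fintype.card_subtype, card_eq_sum_ones, sum_filter,
    ← zq_path]
  push_cast
  refine sum_congr rfl fun w _ => ?_
  rw [St_ind]
  simp only [step_ind]
  by_cases h : (∀ j : Fin M, St G (w j.castSucc) (w j.succ) ∧ (t ≤ j.val →
      (G.Adj (w j.castSucc).1 (w j.castSucc).2 ∧ G.Adj (w j.succ).1 (w j.succ).2)))
  · rw [Finset.prod_eq_one fun j _ => if_pos (h j), one_mul]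
    by_cases h2 : St G (w (Fin.last M)) (w 0)
    · rw [if_pos ⟨h, h2⟩, if_pos h2]
    · rw [if_neg (fun h3 => h2 h3.2), if_neg h2]
  · rw [if_neg (fun h3 => h h3.1)]
    obtain ⟨j, hj⟩ := not_forall.1 h
    rw [Finset.prod_eq_zero (Finset.mem_univ j) (if_neg hj), zero_mul]

/-- **the number of homomorphisms of the Moebius ladder minus `t` consecutive rungs** -/
theorem graph : GGraphStmt := by
  intro X _ _ _ G m t hm ht hodd
  have hn : (0 : ℝ) < Fintype.card X := by exact_mod_cast Fintype.card_pos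
  have hk : m + 1 + t = (t + m) + 1 := by ring
  rw [hk] at hodd ⊢
  have h1 : Nat.card (ZMod (t + m + 1) × Bool) = 2 * (t + m + 1) := by
    rw [Nat.card_prod, Nat.card_zmod, Nat.card_eq_fintype_card, Fintype.card_bool, mul_comm]
  have h2 := sum_eq G m t (by rw [hk]; exact Nat.odd_iff.1 hodd)
  rw [← h2]
  unfold homDensity
  rw [h1, Nat.card_eq_fintype_card (α := X), div_mul_cancel₀ _ (by positivity),
    count G (t + m) t (by omega)]

end graph

end Vale.Agent.P050.H292.GG
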