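import Vale.Agent.P050.H292.GF
import Vale.Agent.P050.H292.GEnt
import Vale.Agent.P050.H292.GG
import Vale.Agent.P050.H546.GBase
import Vale.Agent.P050.H762.GClose
import Vale.Agent.P050.H869.GV
import Vale.Agent.P050.H23.GI

/-!
Moebius ladders without `t` consecutive rungs.
-/

namespace Vale.Agent.P050.H292

open Vale.Agent.P050.H546

theorem missing_rungs : GFinalStmt :=
  gfinal_of (gent_of gBaseStmt (H762.gcloseStmt H869.gval) H23.gInf) GG.graph

end Vale.Agent.P050.H292
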