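import Vale.Agent.P050.H546.Spec2

/-!
The entropy side from its three lemmas.
-/

set_option linter.unusedSectionVars false

namespace Vale.Agent.P050.H292

open Finset Vale.Agent.P050.Cart Vale.Agent.P050.Join Vale.Agent.P050.H148 Vale.Agent.P050.M18
open Vale.Agent.P050.H546

variable {U : Type} [Fintype U] {Q : U × U → ℝ} (hE : Edge Q)

include hE

theorem h3_le : h3Q Q ≤ 2 * aQ Q := by
  have h1 := suba (W3_nn hE) (W3_tot hE) (A := fun x => x.1.1.1) (B := fun x => x.2)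
    (C := fun x => (x.1.1.1, x.2)) (fun x y => by
      simp only [Prod.mk.injEq]
      tauto)
  have h2 : ent (W3 Q) (fun x => x.1.1.1) = aQ Q := by
    unfold aQ
    refine ent_law fun a => ?_
    rw [W3_0 hE, mar_id]
  have h4 : ent (W3 Q) (fun x => x.2) = aQ Q := by
    unfold aQ
    refine ent_law fun a => ?_
    rw [W3_3 hE, mar_id]
  rw [h2, h4] at h1
  have h5 : ent (W3 Q) (fun x => (x.1.1.1, x.2)) = h3Q Q := rfl
  linarith

theorem hB_le [DecidableEq U] (n : ℕ) : hB Q n ≤ hQ Q + aQ Q := by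
  have hl := PP_lab hE n
  have h1 := suba hl.nn (hl.tot hE) (A := fun x => x.1) (B := fun x => x.2.2)
    (C := fun x => (x.1, x.2.2)) (fun x y h1 h2 => by
      simp only [Prod.mk.injEq]
      exact ⟨h1, h2⟩)
  have h2 : ent (PP Q n) (fun x => x.2.2) = aQ Q := by
    rw [← hE.ent_snd]
    exact hl.ent_edge hE fun e => e.2
  rw [PP_label hE, h2] at h1
  exact h1

omit hE

/-- the entropy side -/
theorem ent_of (h1 : BaseStmt) (h2 : MidStmt) (h3 : CloseStmt) : EntStmt := by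
  intro U _ _ C A Q hE hC hA hA1 n hn
  obtain ⟨Ω, _, P, R, a, b, hB1⟩ := h1 U Q hE n
  have hB2 := h2 U Ω Q P R a b n hE hB1
  obtain ⟨h4, h5⟩ := h3 U _ C A Q _ _ _ _ _ _ n hE hC hA hA1 hB2
  refine ⟨h4, le_trans ?_ h5⟩
  have e1 : gQ Q = 3 * hQ Q - 2 * aQ Q - h2Q Q := rfl
  have e2 := h3_le hE
  have e3 := hB_le hE (n + 3)
  have e4 := hB_ge hE n hn
  have e5 := r_nonneg hE
  have hn' : (2 : ℝ) ≤ n := by exact_mod_cast hn
  have e6 : 0 ≤ (2 * (n : ℝ) - 2) * (2 * aQ Q - h2Q Q) := mul_nonneg (by linarith) e5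
  rw [e1]
  nlinarith [e2, e3, e4, e6]

end Vale.Agent.P050.H292
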